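import Vale.Agent.P038.K4.T.FormX

/-! # Certificate for LowForm 1 0 -/

namespace Vale.Agent.P038.K4.Chk

/-- the tree of substitutions -/
def treeF010 : Tr :=
  (.nd 4 2 (.nd 4 6 (.nd 8 7 .lf .lf) (.nd 8 7 .lf (.nd 5 6 .lf (.nd 3 6 .lf .lf)))) (.nd 8 2 (.nd
  5 6 (.nd 5 9 (.nd 8 7 .lf (.nd 5 7 .lf .lf)) (.nd 8 7 .lf .lf)) (.nd 8 7 .lf (.nd 3 6 .lf .lf)))
  (.nd 5 6 (.nd 5 9 (.nd 5 7 (.nd 5 2 .lf (.nd 8 6 .lf (.nd 3 6 .lf .lf))) (.nd 3 6 .lf .lf)) (.nd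
  3 6 .lf .lf)) (.nd 3 6 (.nd 3 2 .lf .lf) .lf))))

theorem formF010 : LowFormS 1 0 :=
  lowS 1 0 treeF010 (by decide +kernel)

end Vale.Agent.P038.K4.Chk
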