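import Vale.Agent.P038.K4.T.FormX

/-! # Certificate for LowForm 2 0 -/

namespace Vale.Agent.P038.K4.Chk

/-- the tree of substitutions -/
def treeF020 : Tr :=
  (.nd 4 6 (.nd 4 2 (.nd 4 9 (.nd 4 7 .lf (.nd 8 7 .lf (.nd 5 7 .lf (.nd 6 7 .lf .lf)))) (.nd 8 9
  (.nd 8 7 .lf (.nd 5 7 .lf (.nd 9 7 (.nd 5 9 .lf .lf) (.nd 6 7 .lf .lf)))) (.nd 5 9 (.nd 5 7 .lf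
  (.nd 8 7 (.nd 8 5 .lf .lf) (.nd 6 7 .lf .lf))) (.nd 8 7 (.nd 8 9 .lf (.nd 9 7 .lf .lf)) (.nd 6 7
  (.nd 8 9 .lf .lf) (.nd 8 9 .lf .lf)))))) (.nd 8 2 (.nd 8 9 (.nd 8 7 .lf (.nd 5 7 .lf (.nd 9 7
  (.nd 5 9 .lf .lf) (.nd 6 7 .lf .lf)))) (.nd 5 9 (.nd 5 7 .lf (.nd 8 7 (.nd 8 5 .lf .lf) (.nd 6 7
  .lf .lf))) (.nd 8 7 (.nd 8 9 .lf (.nd 9 7 .lf .lf)) (.nd 6 7 (.nd 8 9 .lf .lf) (.nd 8 9 .lf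
  .lf))))) (.nd 5 2 (.nd 5 9 (.nd 5 7 .lf (.nd 6 7 .lf .lf)) (.nd 6 7 .lf .lf)) (.nd 6 7 (.nd 6 2
  .lf .lf) .lf)))) (.nd 8 6 (.nd 8 2 (.nd 8 9 (.nd 8 7 .lf (.nd 5 7 .lf (.nd 9 7 (.nd 5 9 .lf .lf)
  (.nd 6 7 .lf (.nd 4 7 .lf (.nd 3 6 .lf .lf)))))) (.nd 5 9 (.nd 5 7 .lf (.nd 8 7 (.nd 8 5 .lf
  .lf) (.nd 6 7 .lf (.nd 4 7 .lf (.nd 3 6 .lf .lf))))) (.nd 6 7 (.nd 6 9 .lf (.nd 9 7 (.nd 8 9 .lf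
  .lf) .lf)) (.nd 8 7 (.nd 8 9 .lf (.nd 6 9 .lf (.nd 9 7 (.nd 8 6 .lf .lf) .lf))) (.nd 4 7 (.nd 8
  9 .lf (.nd 6 9 .lf .lf)) (.nd 6 9 (.nd 3 6 .lf .lf) (.nd 8 9 .lf .lf))))))) (.nd 5 2 (.nd 5 9
  (.nd 5 7 .lf (.nd 6 7 .lf (.nd 4 7 .lf (.nd 3 6 .lf .lf)))) (.nd 6 7 (.nd 6 9 .lf (.nd 9 7 .lf
  .lf)) (.nd 4 7 (.nd 6 9 .lf .lf) (.nd 3 6 .lf (.nd 6 9 .lf .lf))))) (.nd 6 7 (.nd 6 2 (.nd 6 9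
  .lf (.nd 9 7 .lf .lf)) (.nd 4 2 (.nd 9 7 .lf .lf) (.nd 9 7 .lf .lf))) (.nd 4 7 (.nd 4 2 (.nd 6 9
  .lf .lf) (.nd 6 9 .lf .lf)) (.nd 3 6 .lf (.nd 6 9 .lf .lf)))))) (.nd 5 6 (.nd 5 2 (.nd 5 9 (.nd
  5 7 .lf (.nd 8 7 .lf (.nd 4 7 .lf (.nd 3 8 .lf .lf)))) (.nd 8 7 (.nd 8 9 .lf (.nd 9 7 .lf .lf))
  (.nd 4 7 (.nd 8 9 .lf .lf) (.nd 3 8 .lf (.nd 8 9 .lf .lf))))) (.nd 8 7 (.nd 8 2 (.nd 8 9 .lf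
  (.nd 9 7 .lf .lf)) (.nd 4 2 (.nd 9 7 .lf .lf) (.nd 9 7 .lf .lf))) (.nd 4 7 (.nd 4 2 (.nd 8 9 .lf
  .lf) (.nd 8 9 .lf .lf)) (.nd 3 8 .lf (.nd 8 9 .lf .lf))))) (.nd 8 7 (.nd 8 2 (.nd 8 9 (.nd 3 6
  .lf .lf) (.nd 3 7 (.nd 3 6 .lf .lf) (.nd 9 7 .lf .lf))) (.nd 4 2 (.nd 3 6 (.nd 9 7 .lf .lf) (.nd
  9 7 .lf .lf)) (.nd 3 6 (.nd 9 7 (.nd 3 6 .lf .lf) (.nd 3 6 .lf .lf)) (.nd 9 7 .lf .lf)))) (.nd 4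
  7 (.nd 4 2 (.nd 3 6 (.nd 8 9 .lf .lf) (.nd 8 9 .lf .lf)) (.nd 3 6 (.nd 8 9 (.nd 3 6 .lf .lf)
  (.nd 3 6 .lf .lf)) (.nd 8 9 .lf .lf))) (.nd 3 2 (.nd 3 2 (.nd 4 6 (.nd 3 8 .lf (.nd 8 9 .lf
  .lf)) (.nd 6 2 (.nd 1 7 (.nd 3 6 (.nd 8 9 .lf .lf) (.nd 8 9 .lf .lf)) (.nd 3 1 (.nd 1 7 (.nd 3 6
  (.nd 8 9 .lf .lf) (.nd 8 9 .lf .lf)) (.nd 1 6 (.nd 3 8 .lf (.nd 8 9 .lf .lf)) (.nd 6 5 (.nd 3 5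
  (.nd 5 7 (.nd 3 6 (.nd 8 9 .lf .lf) (.nd 8 9 .lf .lf)) (.nd 6 5 (.nd 6 2 (.nd 1 6 (.nd 3 8 .lf
  (.nd 8 9 .lf .lf)) (.nd 1 6 (.nd 3 8 .lf (.nd 8 9 .lf .lf)) (.nd 3 1 (.nd 1 6 (.nd 3 8 .lf (.nd
  8 9 .lf .lf)) (.nd 1 6 (.nd 3 8 .lf (.nd 8 9 .lf .lf)) (.nd 3 8 (.nd 3 2 (.nd 6 2 (.nd 3 5 (.nd
  6 5 (.nd 6 7 (.nd 3 7 (.nd 3 6 .lf .lf) .lf) (.nd 3 6 (.nd 3 2 .lf .lf) .lf)) (.nd 3 2 .lf .lf))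
  .lf) (.nd 3 6 .lf .lf)) .lf) (.nd 8 9 .lf .lf)))) (.nd 8 9 .lf .lf)))) (.nd 3 8 .lf (.nd 8 9 .lf
  .lf))) (.nd 3 8 .lf (.nd 8 9 .lf .lf)))) (.nd 8 9 .lf .lf)) (.nd 3 8 .lf (.nd 8 9 .lf .lf)))))
  (.nd 8 9 .lf .lf))) (.nd 3 8 .lf (.nd 8 9 .lf .lf)))) (.nd 8 9 .lf .lf)) (.nd 8 9 .lf .lf)))))))

theorem formF020 : LowFormS 2 0 :=
  lowS 2 0 treeF020 (by decide +kernel)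

end Vale.Agent.P038.K4.Chk
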