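import Vale.Agent.P038.K4.T.FormX

/-! # Certificate for LowForm 2 1 -/

namespace Vale.Agent.P038.K4.Chk

/-- the tree of substitutions -/
def treeF021 : Tr :=
  (.nd 4 2 (.nd 4 6 (.nd 8 7 (.nd 8 9 .lf (.nd 4 9 .lf (.nd 5 9 .lf (.nd 9 7 (.nd 8 9 .lf (.nd 9 7
  (.nd 3 9 .lf .lf) .lf)) .lf)))) (.nd 4 7 (.nd 4 9 .lf (.nd 5 9 .lf (.nd 8 9 .lf (.nd 8 9 .lf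
  (.nd 3 9 .lf .lf))))) (.nd 5 7 (.nd 5 9 .lf (.nd 8 9 .lf (.nd 8 9 .lf (.nd 3 9 .lf .lf)))) (.nd
  8 9 (.nd 6 7 .lf .lf) (.nd 6 7 (.nd 8 9 .lf (.nd 3 9 .lf .lf)) (.nd 8 9 .lf (.nd 3 9 .lf
  .lf))))))) (.nd 8 7 (.nd 8 9 (.nd 8 6 .lf (.nd 5 6 .lf (.nd 8 2 .lf .lf))) (.nd 5 9 .lf (.nd 9 7
  (.nd 8 9 (.nd 6 5 .lf .lf) (.nd 9 7 (.nd 3 6 (.nd 3 9 .lf (.nd 6 9 .lf .lf)) (.nd 6 9 (.nd 8 6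
  .lf .lf) (.nd 3 9 .lf .lf))) (.nd 8 6 .lf .lf))) .lf))) (.nd 5 7 (.nd 5 9 .lf (.nd 8 9 .lf (.nd
  8 9 .lf (.nd 3 6 (.nd 3 9 .lf (.nd 6 9 .lf .lf)) (.nd 3 9 .lf .lf))))) (.nd 4 7 (.nd 8 9 .lf
  (.nd 8 9 .lf (.nd 3 6 (.nd 3 9 .lf (.nd 6 9 .lf .lf)) (.nd 3 9 .lf .lf)))) (.nd 8 9 .lf (.nd 8 9
  .lf (.nd 3 6 (.nd 3 9 .lf (.nd 6 9 .lf .lf)) (.nd 3 9 .lf .lf)))))))) (.nd 8 2 (.nd 8 7 (.nd 8 9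
  (.nd 8 6 .lf (.nd 5 6 .lf (.nd 4 8 .lf .lf))) (.nd 5 9 .lf (.nd 9 7 (.nd 8 9 (.nd 6 5 .lf .lf)
  (.nd 9 7 (.nd 3 6 (.nd 3 9 .lf (.nd 6 9 .lf .lf)) (.nd 6 9 (.nd 8 6 .lf .lf) (.nd 3 9 .lf .lf)))
  (.nd 8 6 .lf .lf))) .lf))) (.nd 5 9 (.nd 5 7 .lf (.nd 8 9 .lf .lf)) (.nd 8 9 (.nd 8 5 .lf .lf)
  (.nd 8 9 .lf (.nd 3 6 (.nd 3 9 .lf (.nd 6 9 .lf .lf)) (.nd 3 9 .lf .lf)))))) (.nd 5 2 (.nd 5 9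
  .lf (.nd 3 6 (.nd 3 9 .lf (.nd 6 9 .lf .lf)) (.nd 3 9 .lf .lf))) (.nd 3 2 (.nd 3 6 (.nd 3 9 .lf
  (.nd 6 9 .lf .lf)) (.nd 3 9 .lf .lf)) .lf))))

theorem formF021 : LowFormS 2 1 :=
  lowS 2 1 treeF021 (by decide +kernel)

end Vale.Agent.P038.K4.Chk
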