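import Vale.Agent.P038.K4.T.FormX

/-! # Certificate for HighForm 0 1 -/

namespace Vale.Agent.P038.K4.Chk

/-- the tree of substitutions -/
def treeF101 : Tr :=
  (.nd 6 4 (.nd 6 8 (.nd 6 5 .lf (.nd 2 5 .lf (.nd 9 5 .lf (.nd 7 5 .lf .lf)))) (.nd 2 8 (.nd 2 5
  .lf (.nd 9 5 .lf (.nd 7 5 .lf .lf))) (.nd 9 8 (.nd 9 5 .lf (.nd 7 5 .lf (.nd 8 5 .lf .lf))) (.nd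
  7 8 (.nd 7 5 .lf (.nd 5 9 .lf .lf)) (.nd 8 2 (.nd 8 7 (.nd 5 9 .lf .lf) (.nd 5 9 .lf .lf)) (.nd
  5 9 .lf .lf)))))) (.nd 2 4 (.nd 2 8 (.nd 2 5 .lf (.nd 9 5 .lf (.nd 7 5 .lf .lf))) (.nd 9 8 (.nd
  9 5 .lf (.nd 7 5 .lf (.nd 8 5 .lf .lf))) (.nd 7 8 (.nd 7 5 .lf (.nd 5 9 .lf .lf)) (.nd 4 8 (.nd
  5 9 .lf .lf) (.nd 8 7 (.nd 8 2 (.nd 4 8 (.nd 5 9 .lf .lf) (.nd 5 9 .lf .lf)) (.nd 5 9 .lf .lf))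
  (.nd 5 9 .lf .lf)))))) (.nd 9 4 (.nd 9 8 (.nd 9 5 .lf (.nd 7 5 .lf (.nd 8 5 .lf .lf))) (.nd 7 8
  (.nd 7 5 .lf (.nd 5 9 .lf .lf)) (.nd 8 2 (.nd 8 7 (.nd 8 2 (.nd 5 9 .lf .lf) (.nd 5 9 .lf .lf))
  (.nd 5 9 .lf .lf)) (.nd 5 9 .lf .lf)))) (.nd 7 4 (.nd 7 8 (.nd 7 5 .lf .lf) (.nd 8 2 (.nd 4 8
  .lf (.nd 8 7 (.nd 8 2 (.nd 4 8 .lf .lf) .lf) .lf)) .lf)) (.nd 8 7 (.nd 8 2 (.nd 8 7 (.nd 4 6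
  (.nd 4 8 .lf .lf) .lf) (.nd 4 7 (.nd 4 6 .lf .lf) .lf)) (.nd 4 2 (.nd 4 7 (.nd 4 6 .lf .lf) .lf)
  .lf)) (.nd 4 2 (.nd 4 7 (.nd 4 6 .lf (.nd 6 7 .lf .lf)) (.nd 4 6 .lf .lf)) .lf))))))

theorem formF101 : HighFormS 0 1 :=
  highS 0 1 treeF101 (by decide +kernel)

end Vale.Agent.P038.K4.Chk
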