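import Vale.Agent.P038.K4.T.FormX

/-! # Certificate for HighForm 2 1 -/

namespace Vale.Agent.P038.K4.Chk

/-- the tree of substitutions -/
def treeF121 : Tr :=
  (.nd 2 8 (.nd 2 5 (.nd 2 4 .lf (.nd 6 4 .lf (.nd 7 4 .lf (.nd 9 4 .lf .lf)))) (.nd 9 5 (.nd 6 4
  .lf (.nd 7 4 .lf (.nd 9 4 .lf .lf))) (.nd 6 4 (.nd 6 5 .lf (.nd 7 5 .lf .lf)) (.nd 7 4 (.nd 7 5
  .lf .lf) .lf)))) (.nd 9 8 (.nd 9 5 (.nd 6 4 .lf (.nd 7 4 .lf (.nd 9 4 .lf .lf))) (.nd 6 4 (.nd 6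
  5 .lf (.nd 7 5 .lf (.nd 8 7 .lf .lf))) (.nd 7 4 (.nd 7 5 .lf (.nd 8 7 .lf .lf)) .lf))) (.nd 7 8
  (.nd 6 4 (.nd 6 5 .lf (.nd 7 5 .lf (.nd 9 7 .lf .lf))) (.nd 7 4 (.nd 7 5 .lf (.nd 9 7 .lf .lf))
  .lf)) (.nd 6 5 (.nd 6 4 (.nd 6 8 .lf .lf) (.nd 4 8 .lf .lf)) (.nd 4 8 .lf .lf)))))

theorem formF121 : HighFormS 2 1 :=
  highS 2 1 treeF121 (by decide +kernel)

end Vale.Agent.P038.K4.Chk
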