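import Vale.Agent.P038.K4.Chk

/-! # Checker with a side condition `0 < G` (`G` is carried along the certificate) -/

namespace Vale.Agent.P038.K4.Chk

def chkG (K : ℕ) : Tr → P → P → Bool
  | .lf, F, G => cond (nn F) true (nn (neg G))
  | .nd i j t1 t2, F, G =>
    cond (Nat.ble 1 i) (cond (Nat.ble 1 j) (cond (Nat.ble i K) (cond (Nat.ble j K)
      (cond (Nat.ble (Nat.succ j) i)
        (cond (chkG K t1 (sd i j K F) (sd i j K G)) (chkG K t2 (su j i K F) (su j i K G)) false)
        (cond (Nat.ble (Nat.succ i) j)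
          (cond (chkG K t1 (su i j K F) (su i j K G)) (chkG K t2 (sd j i K F) (sd j i K G)) false)
          false))
      false) false) false) false

theorem chkG_sound (K : ℕ) (t : Tr) : ∀ (F G : P), chkG K t F G = true →
    ∀ y : ℕ → ℝ, (∀ i, 0 ≤ y i) → 0 < ev y K G → 0 ≤ ev y K F := by
  induction t with
  | lf =>
    intro F G h y hy hG
    rw [chkG] at h
    cases hF : nn F
    · rw [hF, cond_false] at h
      have := ev_nonneg hy (neg G) K h
      rw [ev_neg] at this
      linarith
    · exact ev_nonneg hy F K hF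
  | nd i j t1 t2 ih1 ih2 =>
    intro F G h y hy hG
    rw [chkG] at h
    obtain ⟨hi, h⟩ := cond_of h
    obtain ⟨hj, h⟩ := cond_of h
    obtain ⟨hiK, h⟩ := cond_of h
    obtain ⟨hjK, h⟩ := cond_of h
    have hi := Nat.le_of_ble_eq_true hi
    have hj := Nat.le_of_ble_eq_true hj
    have hiK := Nat.le_of_ble_eq_true hiK
    have hjK := Nat.le_of_ble_eq_true hjK
    have key : ∀ a b : ℕ, a ≠ b → y b ≤ y a → ∀ F' G' : P,
        (∀ y' : ℕ → ℝ, ev y' K F' = ev (up y' a (y' b)) K F) →
        (∀ y' : ℕ → ℝ, ev y' K G' = ev (up y' a (y' b)) K G) →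
        (∀ y' : ℕ → ℝ, (∀ i, 0 ≤ y' i) → 0 < ev y' K G' → 0 ≤ ev y' K F') →
        0 ≤ ev y K F := by
      intro a b hab hba F' G' hF' hG' hpos
      have hy' : ∀ m, 0 ≤ up y a (-y b) m := by
        intro m
        by_cases hm : m = a
        · subst hm; rw [up_self]; linarith
        · rw [up_ne y _ hm]; exact hy m
      have h2 : up (up y a (-y b)) a (up y a (-y b) b) = y := by
        funext m
        by_cases hm : m = a
        · subst hm; rw [up_self, up_self, up_ne y _ (Ne.symm hab)]; ring
        · rw [up_ne _ _ hm, up_ne _ _ hm]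
      have h1 := hpos _ hy' (by rw [hG', h2]; exact hG)
      rw [hF', h2] at h1
      exact h1
    by_cases hc : j < i
    · have h0 : Nat.ble (Nat.succ j) i = true := Nat.ble_eq_true_of_le hc
      rw [h0, cond_true] at h
      obtain ⟨h1, h2⟩ := cond_of h
      rcases le_total (y j) (y i) with hle | hle
      · exact key i j (by omega) hle _ _ (fun y' => ev_sd y' i j hc F K hiK)
          (fun y' => ev_sd y' i j hc G K hiK) (fun y' h' => ih1 _ _ h1 y' h')
      · exact key j i (by omega) hle _ _ (fun y' => ev_su y' j i hj hc F K hiK)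
          (fun y' => ev_su y' j i hj hc G K hiK) (fun y' h' => ih2 _ _ h2 y' h')
    · have h0 : Nat.ble (Nat.succ j) i = false := by
        cases hb : Nat.ble (Nat.succ j) i
        · rfl
        · exact absurd (Nat.le_of_ble_eq_true hb) (by omega)
      rw [h0, cond_false] at h
      obtain ⟨hij, h⟩ := cond_of h
      have hij : i < j := Nat.le_of_ble_eq_true hij
      obtain ⟨h1, h2⟩ := cond_of h
      rcases le_total (y j) (y i) with hle | hle
      · exact key i j (by omega) hle _ _ (fun y' => ev_su y' i j hi hij F K hjK)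
          (fun y' => ev_su y' i j hi hij G K hjK) (fun y' h' => ih1 _ _ h1 y' h')
      · exact key j i (by omega) hle _ _ (fun y' => ev_sd y' j i hij F K hjK)
          (fun y' => ev_sd y' j i hij G K hjK) (fun y' h' => ih2 _ _ h2 y' h')

def checkG (K : ℕ) (e g : Ex) (t : Tr) : Bool :=
  cond (e.ok K) (cond (g.ok K) (chkG K t (norm (e.toP K)) (norm (g.toP K))) false) false

/-- SOUNDNESS with a side condition. -/
theorem checkG_sound (K : ℕ) (e g : Ex) (t : Tr) (h : checkG K e g t = true) :
    ∀ y : ℕ → ℝ, (∀ i, 0 ≤ y i) → 0 < g.eval y → 0 ≤ e.eval y := by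
  intro y hy hg
  obtain ⟨h1, h2⟩ := cond_of h
  obtain ⟨h3, h4⟩ := cond_of h2
  rw [← ev_toP y K e h1, ← ev_norm]
  rw [← ev_toP y K g h3, ← ev_norm] at hg
  exact chkG_sound K t _ _ h4 y hy hg

end Vale.Agent.P038.K4.Chk
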