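import Vale.Agent.P038.K4.T.FormX

/-! # Certificate for LowForm 0 0 -/

namespace Vale.Agent.P038.K4.Chk

/-- the tree of substitutions -/
def treeF000 : Tr :=
  (.nd 4 2 (.nd 4 6 (.nd 8 7 (.nd 8 9 .lf .lf) (.nd 4 7 .lf (.nd 5 7 .lf (.nd 6 7 .lf (.nd 9 7 .lf
  .lf))))) (.nd 8 7 (.nd 8 9 (.nd 8 6 .lf .lf) .lf) (.nd 5 7 .lf (.nd 6 7 (.nd 3 7 .lf .lf) (.nd 4
  7 (.nd 3 6 .lf .lf) (.nd 3 6 (.nd 9 7 .lf .lf) (.nd 9 7 .lf .lf))))))) (.nd 8 7 (.nd 8 9 (.nd 8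
  2 (.nd 8 6 .lf (.nd 5 6 .lf .lf)) (.nd 5 6 (.nd 5 2 .lf .lf) .lf)) (.nd 5 6 (.nd 5 2 (.nd 5 9
  .lf .lf) .lf) .lf)) (.nd 5 7 (.nd 5 6 (.nd 5 2 (.nd 5 9 .lf .lf) .lf) .lf) (.nd 3 6 (.nd 9 7 .lf
  (.nd 3 8 .lf .lf)) (.nd 6 7 .lf (.nd 9 7 .lf .lf))))))

theorem formF000 : LowFormS 0 0 :=
  lowS 0 0 treeF000 (by decide +kernel)

end Vale.Agent.P038.K4.Chk
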