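import Vale.Agent.P038.K4.T.ChkG
import Vale.Agent.P038.K4.Strict

set_option linter.all false

/-! # The twelve forms as expressions of the checker -/

namespace Vale.Agent.P038.K4.Chk

/-- `100 * Ph` -/
def PhX (sg x n f y f' : Ex) : Ex :=
  ((((((((Ex.mul f ((((((Ex.k 99).mul (sg.mul sg)).sub ((Ex.k 38).mul (x.mul sg))).sub
    ((Ex.k 87).mul (y.mul sg))).sub ((Ex.k 141).mul (x.mul x))).add ((Ex.k 39).mul (x.mul y)))).add
    (f'.mul (((Ex.k 126).mul (x.mul sg)).sub ((Ex.k 17).mul (x.mul x))))).add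
    ((Ex.k 56).mul (f.mul (f'.mul sg)))).sub
    ((((Ex.k 47).mul sg).add ((Ex.k 21).mul x)).mul (n.mul n))).add
    ((Ex.k 103).mul (n.mul (f.mul sg)))).add
    ((Ex.k 26).mul (n.mul (f'.mul sg)))).sub
    ((Ex.k 28).mul (f.mul (f.mul sg)))).sub
    ((Ex.k 48).mul (x.mul (n.mul f'))))

/-- `5000 * Form` -/
def FoX (sg la x0 x1 x2 f0 n0 n1 m b ph ep f1 t : Ex) : Ex :=
  (((((Ex.k 1250).mul ((sg.mul (sg.sub la)).mul
    ((((((Ex.k 4).mul ((sg.sub n0).mul (f0.add ep))).add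
      ((Ex.k 4).mul (b.mul ((sg.sub n0).sub x0)))).add
      (m.mul (((Ex.k 3).mul m).sub ((Ex.k 4).mul ph))))).sub ((Ex.k 4).mul (x1.mul t))))).add
    ((Ex.k 5000).mul ((sg.mul la).mul ((sg.sub n0).mul ((x0.sub n0).sub (x1.sub n1)))))).sub
    ((Ex.k 63).mul ((n0.mul n0).mul (((Ex.k 49).mul (x0.mul (sg.sub x0))).sub
      (x1.mul (((((Ex.k 100).mul x1).add ((Ex.k 100).mul x2)).add ((Ex.k 140).mul x0)).sub
        ((Ex.k 100).mul sg))))))).add
    ((Ex.k 50).mul ((sg.sub n0).mul ((PhX sg x1 n1 f1 x2 t).sub (PhX sg x0 n0 f0 x1 f1)))))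

theorem PhX_eval (Y : ℕ → ℝ) (sg x n f y f' : Ex) : (PhX sg x n f y f').eval Y =
    100 * Ph (sg.eval Y) (x.eval Y) (n.eval Y) (f.eval Y) (y.eval Y) (f'.eval Y) := by
  simp only [PhX, Ex.eval, Ph]
  push_cast
  ring

theorem FoX_eval (Y : ℕ → ℝ) (sg la x0 x1 x2 f0 n0 n1 m b ph ep f1 t : Ex) :
    (FoX sg la x0 x1 x2 f0 n0 n1 m b ph ep f1 t).eval Y =
    5000 * Form (sg.eval Y) (la.eval Y) (x0.eval Y) (x1.eval Y) (x2.eval Y) (f0.eval Y)
      (n0.eval Y) (n1.eval Y) (m.eval Y) (b.eval Y) (ph.eval Y) (ep.eval Y) (f1.eval Y)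
      (t.eval Y) := by
  simp only [FoX, Ex.eval, PhX_eval, Form]
  push_cast
  ring

/-- variables, the most used ones last -/
def vph : Ex := .v 4
def vs : Ex := .v 3
def vr : Ex := .v 8
def vep : Ex := .v 1
def vm : Ex := .v 6
def vb : Ex := .v 2
def ve0 : Ex := .v 5
def ve1 : Ex := .v 9
def vz : Ex := .v 7

def xsg : Ex := ((((((((vph.add ((Ex.k 2).mul vs)).add vr).add ((Ex.k 2).mul vep)).add vm).add
  vb).add ve0).add ve1).add vz)
def xx0 : Ex := (((vph.add vs).add vr).add vep).add ve0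
def xx1 : Ex := (((vm.add vb).add vs).add vep).add ve1
def xX : Ex := (((((vph.add vs).add vr).add vep).add ve0).add vz)
def xf0 : Ex := vph.add vs
def xn0 : Ex := ((vph.add vs).add vr).add vep
def xn1 : Ex := ((vm.add vb).add vs).add vep
/-- `g` in the low regime -/
def gLow : Ex := (((vm.add vb).add ve1).add vz).sub ((vph.add vr).add ve0)
/-- `g` in the high regime -/
def gHigh : Ex := ((vph.add vr).add ve0).sub (((vm.add vb).add ve1).add vz)

def ex9 (la x2 t h : Ex) : Ex :=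
  FoX xsg la xx0 xx1 x2 xf0 xn0 xn1 vm vb vph vep (vb.add h) t

/-- the point -/
noncomputable def pt (ph s r ep m b e0 e1 z : ℝ) : ℕ → ℝ
  | 1 => ep
  | 2 => b
  | 3 => s
  | 4 => ph
  | 5 => e0
  | 6 => m
  | 7 => z
  | 8 => r
  | 9 => e1
  | _ => 0

theorem pt_nonneg (ph s r ep m b e0 e1 z : ℝ) (h1 : 0 ≤ ph) (h2 : 0 ≤ s) (h3 : 0 ≤ r)
    (h4 : 0 ≤ ep) (h5 : 0 ≤ m) (h6 : 0 ≤ b) (h7 : 0 ≤ e0) (h8 : 0 ≤ e1) (h9 : 0 ≤ z) :
    ∀ i, 0 ≤ pt ph s r ep m b e0 e1 z i := by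
  intro i
  unfold pt
  split <;> first | assumption | exact le_rfl

theorem ex9_eval (la x2 t h : Ex) (ph s r ep m b e0 e1 z : ℝ) :
    (ex9 la x2 t h).eval (pt ph s r ep m b e0 e1 z) =
      5000 * Form9 (la.eval (pt ph s r ep m b e0 e1 z)) (x2.eval (pt ph s r ep m b e0 e1 z))
        (t.eval (pt ph s r ep m b e0 e1 z)) (h.eval (pt ph s r ep m b e0 e1 z))
        ph s r ep m b e0 e1 z := by
  rw [ex9, FoX_eval]
  simp only [Form9, xsg, xx0, xx1, xf0, xn0, xn1, vph, vs, vr, vep, vm, vb, ve0, ve1, vz, Ex.eval,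
    pt]
  push_cast
  rfl

theorem lowS (tc hc : ℕ) (t : Tr)
    (h : checkG 9 (ex9 (.k 0) (if tc = 0 then .k 0 else xX) (if tc = 2 then xX else .k 0)
      (if hc = 0 then .k 0 else vs.add vep)) gLow t = true) : LowFormS tc hc := by
  intro ph s r ep m b e0 e1 z h1 h2 h3 h4 h5 h6 h7 h8 h9 hL
  have key := checkG_sound 9 _ gLow t h (pt ph s r ep m b e0 e1 z)
    (pt_nonneg ph s r ep m b e0 e1 z h1 h2 h3 h4 h5 h6 h7 h8 h9)
    (by
      simp only [gLow, vph, vs, vr, vep, vm, vb, ve0, ve1, vz, Ex.eval, pt]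
      linarith)
  rw [ex9_eval] at key
  have e1' : (if tc = 0 then (Ex.k 0) else xX).eval (pt ph s r ep m b e0 e1 z) =
      if tc = 0 then 0 else ph + s + r + ep + e0 + z := by
    split_ifs
    · simp [Ex.eval]
    · simp only [xX, vph, vs, vr, vep, vm, vb, ve0, ve1, vz, Ex.eval, pt]
  have e2' : (if tc = 2 then xX else (Ex.k 0)).eval (pt ph s r ep m b e0 e1 z) =
      if tc = 2 then ph + s + r + ep + e0 + z else 0 := by
    split_ifs
    · simp only [xX, vph, vs, vr, vep, vm, vb, ve0, ve1, vz, Ex.eval, pt]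
    · simp [Ex.eval]
  have e3' : (if hc = 0 then (Ex.k 0) else vs.add vep).eval (pt ph s r ep m b e0 e1 z) =
      if hc = 0 then 0 else s + ep := by
    split_ifs
    · simp [Ex.eval]
    · simp only [vs, vep, Ex.eval, pt]
  have e4' : (Ex.k 0).eval (pt ph s r ep m b e0 e1 z) = 0 := by simp [Ex.eval]
  rw [e1', e2', e3', e4'] at key
  linarith

theorem highS (tc hc : ℕ) (t : Tr)
    (h : checkG 9 (ex9 gHigh (if tc = 0 then .k 0 else xX) (if tc = 2 then xX else .k 0)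
      (if hc = 0 then .k 0 else vs.add vep)) gHigh t = true) : HighFormS tc hc := by
  intro ph s r ep m b e0 e1 z h1 h2 h3 h4 h5 h6 h7 h8 h9 hL
  have e4' : gHigh.eval (pt ph s r ep m b e0 e1 z) = ph + r + e0 - (m + b + e1 + z) := by
    simp only [gHigh, vph, vs, vr, vep, vm, vb, ve0, ve1, vz, Ex.eval, pt]
  have key := checkG_sound 9 _ gHigh t h (pt ph s r ep m b e0 e1 z)
    (pt_nonneg ph s r ep m b e0 e1 z h1 h2 h3 h4 h5 h6 h7 h8 h9)
    (by
      rw [e4']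
      linarith)
  rw [ex9_eval] at key
  have e1' : (if tc = 0 then (Ex.k 0) else xX).eval (pt ph s r ep m b e0 e1 z) =
      if tc = 0 then 0 else ph + s + r + ep + e0 + z := by
    split_ifs
    · simp [Ex.eval]
    · simp only [xX, vph, vs, vr, vep, vm, vb, ve0, ve1, vz, Ex.eval, pt]
  have e2' : (if tc = 2 then xX else (Ex.k 0)).eval (pt ph s r ep m b e0 e1 z) =
      if tc = 2 then ph + s + r + ep + e0 + z else 0 := by
    split_ifs
    · simp only [xX, vph, vs, vr, vep, vm, vb, ve0, ve1, vz, Ex.eval, pt]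
    · simp [Ex.eval]
  have e3' : (if hc = 0 then (Ex.k 0) else vs.add vep).eval (pt ph s r ep m b e0 e1 z) =
      if hc = 0 then 0 else s + ep := by
    split_ifs
    · simp [Ex.eval]
    · simp only [vs, vep, Ex.eval, pt]
  rw [e1', e2', e3', e4'] at key
  linarith

end Vale.Agent.P038.K4.Chk
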